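import Vale.Agent.P141.H958.S4c

/-!
# P141, line (S): the static growth of the alive part of a killed function

`4 ^ k * s4 k k A n m` is the energy of the square `(k, n, m)`.  `eD st e A j n m` is the energy of
`A` on the partition of the square `(e + j, n, m)` into its maximal stopped squares (predicate `st`,
scales `≥ e`) and the remaining squares of scale `e`; `dE` is the part of the stopped squares.

* `s4_conv` : `2 s4 F ≤ s4 (F + G) + s4 (F - G)`;
* `le_eD` : the energy of the square is at most the energy on the partition;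
* `eD_kill`, `eD_dbl`, `eD_grid` : the energies of the function killed (doubled) on the stopped
  squares; the killed function has the same energy on the partition and on the full grid;
* **`death`** : the growth of the killed function from the square to the full grid of scale `e` is
  at most twice the growth of `A` along the partition plus `14` times the killed energy.
-/

namespace Vale.Agent.P141.H425

open Finset Matrix Vale.Agent.P075 Vale.Agent.P141.PL Vale.Agent.P141.PL.H588
open Vale.Agent.P141.H958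

noncomputable section

open scoped Classical

/-! ### Convexity -/

/-- the fourth moment as a sum over quadruples is at least ... (midpoint convexity) -/
theorem s4_conv (a b : ℕ) (F G : ℤ → ℤ → ℝ) (n m : ℤ) :
    2 * s4 a b F n m ≤ s4 a b (fun x y => F x y + G x y) n m +
      s4 a b (fun x y => F x y - G x y) n m := by
  rw [s4_sum, s4_sum, s4_sum]
  have hc : (0 : ℝ) ≤ (((2 : ℝ) ^ a * 2 ^ b) ^ 2)⁻¹ := by positivity
  set c := (((2 : ℝ) ^ a * 2 ^ b) ^ 2)⁻¹ with hcd
  have key : 2 * ∑ y ∈ iv b m, ∑ y' ∈ iv b m, (∑ x ∈ iv a n, F x y * F x y') ^ 2 ≤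
      ∑ y ∈ iv b m, ∑ y' ∈ iv b m, (∑ x ∈ iv a n, (F x y + G x y) * (F x y' + G x y')) ^ 2 +
      ∑ y ∈ iv b m, ∑ y' ∈ iv b m, (∑ x ∈ iv a n, (F x y - G x y) * (F x y' - G x y')) ^ 2 := by
    have hpq : 0 ≤ ∑ y ∈ iv b m, ∑ y' ∈ iv b m,
        (∑ x ∈ iv a n, F x y * F x y') * ∑ x ∈ iv a n, G x y * G x y' := by
      have e : ∑ y ∈ iv b m, ∑ y' ∈ iv b m,
          (∑ x ∈ iv a n, F x y * F x y') * ∑ x ∈ iv a n, G x y * G x y' =
          ∑ x ∈ iv a n, ∑ x' ∈ iv a n, (∑ y ∈ iv b m, F x y * G x' y) ^ 2 := by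
        simp only [sum_mul_sum, pow_two]
        calc _ = ∑ y ∈ iv b m, ∑ x ∈ iv a n, ∑ y' ∈ iv b m, ∑ x' ∈ iv a n,
              F x y * F x y' * (G x' y * G x' y') :=
            sum_congr rfl fun y _ => sum_comm
          _ = ∑ x ∈ iv a n, ∑ y ∈ iv b m, ∑ y' ∈ iv b m, ∑ x' ∈ iv a n,
              F x y * F x y' * (G x' y * G x' y') := sum_comm
          _ = ∑ x ∈ iv a n, ∑ y ∈ iv b m, ∑ x' ∈ iv a n, ∑ y' ∈ iv b m,
              F x y * F x y' * (G x' y * G x' y') :=
            sum_congr rfl fun x _ => sum_congr rfl fun y _ => sum_comm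
          _ = ∑ x ∈ iv a n, ∑ x' ∈ iv a n, ∑ y ∈ iv b m, ∑ y' ∈ iv b m,
              F x y * F x y' * (G x' y * G x' y') :=
            sum_congr rfl fun x _ => sum_comm
          _ = _ := by
            refine sum_congr rfl fun x _ => sum_congr rfl fun x' _ => ?_
            refine sum_congr rfl fun y _ => sum_congr rfl fun y' _ => ?_
            ring
      rw [e]
      exact sum_nonneg fun x _ => sum_nonneg fun x' _ => sq_nonneg _
    have pt : ∀ y y', 2 * (∑ x ∈ iv a n, F x y * F x y') ^ 2 +
        4 * ((∑ x ∈ iv a n, F x y * F x y') * ∑ x ∈ iv a n, G x y * G x y') ≤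
        (∑ x ∈ iv a n, (F x y + G x y) * (F x y' + G x y')) ^ 2 +
        (∑ x ∈ iv a n, (F x y - G x y) * (F x y' - G x y')) ^ 2 := by
      intro y y'
      have e1 : ∑ x ∈ iv a n, (F x y + G x y) * (F x y' + G x y') =
          (∑ x ∈ iv a n, F x y * F x y' + ∑ x ∈ iv a n, G x y * G x y') +
            ∑ x ∈ iv a n, (F x y * G x y' + G x y * F x y') := by
        rw [← sum_add_distrib, ← sum_add_distrib]
        exact sum_congr rfl fun x _ => by ring
      have e2 : ∑ x ∈ iv a n, (F x y - G x y) * (F x y' - G x y') =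
          (∑ x ∈ iv a n, F x y * F x y' + ∑ x ∈ iv a n, G x y * G x y') -
            ∑ x ∈ iv a n, (F x y * G x y' + G x y * F x y') := by
        rw [← sum_add_distrib, ← sum_sub_distrib]
        exact sum_congr rfl fun x _ => by ring
      rw [e1, e2]
      nlinarith [sq_nonneg (∑ x ∈ iv a n, G x y * G x y'),
        sq_nonneg (∑ x ∈ iv a n, (F x y * G x y' + G x y * F x y'))]
    have h := sum_le_sum fun y (_ : y ∈ iv b m) => sum_le_sum fun y' (_ : y' ∈ iv b m) => pt y y'
    simp only [sum_add_distrib, ← mul_sum] at h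
    linarith
  nlinarith [mul_le_mul_of_nonneg_left key hc]

/-- values on the square only -/
theorem s4_ext {a b : ℕ} {F F' : ℤ → ℤ → ℝ} {n m : ℤ}
    (h : ∀ x ∈ iv a n, ∀ y ∈ iv b m, F x y = F' x y) : s4 a b F n m = s4 a b F' n m := by
  rw [s4_sum, s4_sum]
  congr 1
  refine sum_congr rfl fun y hy => sum_congr rfl fun y' hy' => ?_
  congr 1
  exact sum_congr rfl fun x hx => by rw [h x hx y hy, h x hx y' hy']

theorem s4_zero' (a b : ℕ) (n m : ℤ) : s4 a b (fun _ _ => 0) n m = 0 := by
  rw [s4_sum]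
  simp

theorem s4_two (a b : ℕ) (F : ℤ → ℤ → ℝ) (n m : ℤ) :
    s4 a b (fun x y => 2 * F x y) n m = 16 * s4 a b F n m := by
  rw [s4_sum, s4_sum]
  have e : ∀ y y', (∑ x ∈ iv a n, 2 * F x y * (2 * F x y')) ^ 2 =
      16 * (∑ x ∈ iv a n, F x y * F x y') ^ 2 := by
    intro y y'
    have : ∑ x ∈ iv a n, 2 * F x y * (2 * F x y') = 4 * ∑ x ∈ iv a n, F x y * F x y' := by
      rw [mul_sum]
      exact sum_congr rfl fun x _ => by ring
    rw [this]
    ring
  simp only [e, ← mul_sum]
  ring

/-- four children -/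
theorem s4_quad (k : ℕ) (F : ℤ → ℤ → ℝ) (n m : ℤ) :
    (4 : ℝ) ^ (k + 1) * s4 (k + 1) (k + 1) F n m ≤
      4 ^ k * s4 k k F (2 * n) (2 * m) + 4 ^ k * s4 k k F (2 * n) (2 * m + 1) +
      4 ^ k * s4 k k F (2 * n + 1) (2 * m) + 4 ^ k * s4 k k F (2 * n + 1) (2 * m + 1) := by
  have h1 := s4_row k (k + 1) F n m
  have h2 := s4_col k k F (2 * n) m
  have h3 := s4_col k k F (2 * n + 1) m
  have h4 : (0 : ℝ) < 4 ^ k := by positivity
  have h : s4 (k + 1) (k + 1) F n m ≤ (1 / 4) * (s4 k k F (2 * n) (2 * m) +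
      s4 k k F (2 * n) (2 * m + 1) + s4 k k F (2 * n + 1) (2 * m) +
      s4 k k F (2 * n + 1) (2 * m + 1)) := by linarith
  calc (4 : ℝ) ^ (k + 1) * s4 (k + 1) (k + 1) F n m
      ≤ 4 ^ (k + 1) * ((1 / 4) * (s4 k k F (2 * n) (2 * m) +
      s4 k k F (2 * n) (2 * m + 1) + s4 k k F (2 * n + 1) (2 * m) +
      s4 k k F (2 * n + 1) (2 * m + 1))) := mul_le_mul_of_nonneg_left h (by positivity)
    _ = _ := by rw [pow_succ]; ring

/-! ### The partition -/

/-- The energy of `A` on the partition of the square `(e + j, n, m)` into its maximal stopped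
squares and the remaining squares of scale `e`. -/
def eD (st : ℕ → ℤ → ℤ → Prop) (e : ℕ) (A : ℤ → ℤ → ℝ) : ℕ → ℤ → ℤ → ℝ
  | 0, n, m => 4 ^ e * s4 e e A n m
  | j + 1, n, m => if st (e + j + 1) n m then
        4 ^ (e + j + 1) * s4 (e + j + 1) (e + j + 1) A n m
      else eD st e A j (2 * n) (2 * m) + eD st e A j (2 * n) (2 * m + 1) +
        eD st e A j (2 * n + 1) (2 * m) + eD st e A j (2 * n + 1) (2 * m + 1)

/-- The energy of the stopped squares. -/
def dE (st : ℕ → ℤ → ℤ → Prop) (e : ℕ) (A : ℤ → ℤ → ℝ) : ℕ → ℤ → ℤ → ℝ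
  | 0, n, m => if st e n m then 4 ^ e * s4 e e A n m else 0
  | j + 1, n, m => if st (e + j + 1) n m then
        4 ^ (e + j + 1) * s4 (e + j + 1) (e + j + 1) A n m
      else dE st e A j (2 * n) (2 * m) + dE st e A j (2 * n) (2 * m + 1) +
        dE st e A j (2 * n + 1) (2 * m) + dE st e A j (2 * n + 1) (2 * m + 1)

/-- The point is in a stopped square of scale `e, .., e + j`. -/
def dpt (st : ℕ → ℤ → ℤ → Prop) (e j : ℕ) (x y : ℤ) : Prop :=
  ∃ i ≤ j, st (e + i) (ix (e + i) x) (ix (e + i) y)

/-- killed on the stopped squares -/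
def kil (st : ℕ → ℤ → ℤ → Prop) (e j : ℕ) (A : ℤ → ℤ → ℝ) (x y : ℤ) : ℝ :=
  if dpt st e j x y then 0 else A x y

/-- doubled on the stopped squares -/
def dbl (st : ℕ → ℤ → ℤ → Prop) (e j : ℕ) (A : ℤ → ℤ → ℝ) (x y : ℤ) : ℝ :=
  if dpt st e j x y then 2 * A x y else A x y

variable {st : ℕ → ℤ → ℤ → Prop} {e : ℕ}

theorem le_eD (A : ℤ → ℤ → ℝ) (j : ℕ) (n m : ℤ) :
    4 ^ (e + j) * s4 (e + j) (e + j) A n m ≤ eD st e A j n m := by
  induction j generalizing n m with
  | zero => exact le_rfl
  | succ j ih =>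
    unfold eD
    split_ifs with h
    · exact le_rfl
    · refine (s4_quad (e + j) A n m).trans ?_
      have h1 := ih (2 * n) (2 * m)
      have h2 := ih (2 * n) (2 * m + 1)
      have h3 := ih (2 * n + 1) (2 * m)
      have h4 := ih (2 * n + 1) (2 * m + 1)
      linarith

theorem iv_child {k : ℕ} {n x : ℤ} :
    (x ∈ iv k (2 * n) → x ∈ iv (k + 1) n) ∧ (x ∈ iv k (2 * n + 1) → x ∈ iv (k + 1) n) := by
  simp only [iv, mem_Ico]
  constructor <;> · rintro ⟨h1, h2⟩; rw [pow_succ]; constructor <;> nlinarith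

theorem eD_congr {A A' : ℤ → ℤ → ℝ} (j : ℕ) {n m : ℤ}
    (h : ∀ x ∈ iv (e + j) n, ∀ y ∈ iv (e + j) m, A x y = A' x y) :
    eD st e A j n m = eD st e A' j n m := by
  induction j generalizing n m with
  | zero =>
    have h0 : s4 e e A n m = s4 e e A' n m := s4_ext h
    unfold eD
    rw [h0]
  | succ j ih =>
    have h0 : s4 (e + j + 1) (e + j + 1) A n m = s4 (e + j + 1) (e + j + 1) A' n m := s4_ext h
    unfold eD
    rw [h0]
    have h' : ∀ (n' m' : ℤ), (n' = 2 * n ∨ n' = 2 * n + 1) → (m' = 2 * m ∨ m' = 2 * m + 1) →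
        eD st e A j n' m' = eD st e A' j n' m' := by
      intro n' m' hn hm
      refine ih fun x hx y hy => h x ?_ y ?_
      · rcases hn with rfl | rfl
        · exact iv_child.1 hx
        · exact iv_child.2 hx
      · rcases hm with rfl | rfl
        · exact iv_child.1 hy
        · exact iv_child.2 hy
    rw [h' _ _ (Or.inl rfl) (Or.inl rfl), h' _ _ (Or.inl rfl) (Or.inr rfl),
      h' _ _ (Or.inr rfl) (Or.inl rfl), h' _ _ (Or.inr rfl) (Or.inr rfl)]

theorem dpt_succ {j : ℕ} {n m x y : ℤ} (h : ¬ st (e + j + 1) n m) (hx : x ∈ iv (e + j + 1) n)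
    (hy : y ∈ iv (e + j + 1) m) : dpt st e (j + 1) x y ↔ dpt st e j x y := by
  rw [mem_iv] at hx hy
  constructor
  · rintro ⟨i, hi, hs⟩
    rcases Nat.lt_or_ge i (j + 1) with h1 | h1
    · exact ⟨i, by omega, hs⟩
    · have : i = j + 1 := by omega
      subst this
      rw [← add_assoc, hx, hy] at hs
      exact absurd hs h
  · rintro ⟨i, hi, hs⟩
    exact ⟨i, by omega, hs⟩

theorem dpt_of_st {j : ℕ} {n m x y : ℤ} (h : st (e + j) n m) (hx : x ∈ iv (e + j) n)
    (hy : y ∈ iv (e + j) m) : dpt st e j x y := by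
  rw [mem_iv] at hx hy
  exact ⟨j, le_rfl, by rwa [hx, hy]⟩

/-- general form: a function which is `c A` on the stopped squares and `A` elsewhere -/
theorem eD_gen (A : ℤ → ℤ → ℝ) (T : ℕ → ℤ → ℤ → ℝ) (c : ℝ)
    (h1 : ∀ j x y, dpt st e j x y → T j x y = c * A x y)
    (h2 : ∀ j x y, ¬ dpt st e j x y → T j x y = A x y)
    (hs : ∀ k n m, s4 k k (fun x y => c * A x y) n m = c ^ 4 * s4 k k A n m) (j : ℕ) (n m : ℤ) :
    eD st e (T j) j n m = eD st e A j n m + (c ^ 4 - 1) * dE st e A j n m := by
  induction j generalizing n m with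
  | zero =>
    unfold eD dE
    by_cases h : st e n m
    · rw [if_pos h, s4_ext (F' := fun x y => c * A x y), hs]
      · ring
      · intro x hx y hy
        exact h1 0 x y (dpt_of_st (j := 0) h hx hy)
    · rw [if_neg h, s4_ext (F' := A)]
      · ring
      · intro x hx y hy
        refine h2 0 x y ?_
        rintro ⟨i, hi, hst⟩
        have : i = 0 := by omega
        subst this
        rw [mem_iv] at hx hy
        rw [add_zero, hx, hy] at hst
        exact h hst
  | succ j ih =>
    unfold eD dE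
    by_cases h : st (e + j + 1) n m
    · rw [if_pos h, if_pos h, if_pos h, s4_ext (F' := fun x y => c * A x y), hs]
      · ring
      · intro x hx y hy
        exact h1 (j + 1) x y (dpt_of_st (j := j + 1) h hx hy)
    · rw [if_neg h, if_neg h, if_neg h]
      have h' : ∀ (n' m' : ℤ), (n' = 2 * n ∨ n' = 2 * n + 1) → (m' = 2 * m ∨ m' = 2 * m + 1) →
          eD st e (T (j + 1)) j n' m' = eD st e A j n' m' + (c ^ 4 - 1) * dE st e A j n' m' := by
        intro n' m' hn hm
        rw [← ih n' m']
        refine eD_congr j fun x hx y hy => ?_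
        have hx' : x ∈ iv (e + j + 1) n := by
          rcases hn with rfl | rfl
          · exact iv_child.1 hx
          · exact iv_child.2 hx
        have hy' : y ∈ iv (e + j + 1) m := by
          rcases hm with rfl | rfl
          · exact iv_child.1 hy
          · exact iv_child.2 hy
        by_cases hd : dpt st e j x y
        · rw [h1 j x y hd, h1 (j + 1) x y ((dpt_succ h hx' hy').2 hd)]
        · rw [h2 j x y hd, h2 (j + 1) x y fun h3 => hd ((dpt_succ h hx' hy').1 h3)]
      rw [h' _ _ (Or.inl rfl) (Or.inl rfl), h' _ _ (Or.inl rfl) (Or.inr rfl),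
        h' _ _ (Or.inr rfl) (Or.inl rfl), h' _ _ (Or.inr rfl) (Or.inr rfl)]
      ring

theorem eD_kil (A : ℤ → ℤ → ℝ) (j : ℕ) (n m : ℤ) :
    eD st e (kil st e j A) j n m = eD st e A j n m - dE st e A j n m := by
  have h := eD_gen (st := st) (e := e) A (fun j => kil st e j A) 0
    (fun j x y h => by simp [kil, h]) (fun j x y h => by simp [kil, h])
    (fun k n m => by
      have : (fun x y => (0 : ℝ) * A x y) = fun _ _ => (0 : ℝ) := by funext x y; ring
      rw [this, s4_zero']; ring) j n m
  rw [h]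
  ring

theorem eD_dbl (A : ℤ → ℤ → ℝ) (j : ℕ) (n m : ℤ) :
    eD st e (dbl st e j A) j n m = eD st e A j n m + 15 * dE st e A j n m := by
  have h := eD_gen (st := st) (e := e) A (fun j => dbl st e j A) 2
    (fun j x y h => by simp [dbl, h]) (fun j x y h => by simp [dbl, h])
    (fun k n m => by rw [s4_two]; norm_num) j n m
  rw [h]
  ring

/-- **Deaths, partition form.** -/
theorem death_part (A : ℤ → ℤ → ℝ) (j : ℕ) (n m : ℤ) :
    eD st e (kil st e j A) j n m -
        4 ^ (e + j) * s4 (e + j) (e + j) (kil st e j A) n m ≤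
      2 * (eD st e A j n m - 4 ^ (e + j) * s4 (e + j) (e + j) A n m) +
        14 * dE st e A j n m := by
  have h1 := le_eD (st := st) (e := e) (dbl st e j A) j n m
  rw [eD_dbl] at h1
  rw [eD_kil]
  have h2 := s4_conv (e + j) (e + j) A (fun x y => if dpt st e j x y then A x y else 0) n m
  have e1 : (fun x y => A x y + if dpt st e j x y then A x y else 0) = dbl st e j A := by
    funext x y
    unfold dbl
    split_ifs <;> ring
  have e2 : (fun x y => A x y - if dpt st e j x y then A x y else 0) = kil st e j A := by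
    funext x y
    unfold kil
    split_ifs <;> ring
  rw [e1, e2] at h2
  have h3 := mul_le_mul_of_nonneg_left h2 (by positivity : (0 : ℝ) ≤ 4 ^ (e + j))
  linarith

/-! ### The full grid -/

/-- The energy on the full grid of scale `e`. -/
def eG (e : ℕ) (A : ℤ → ℤ → ℝ) (j : ℕ) (n m : ℤ) : ℝ :=
  4 ^ e * ∑ n' ∈ iv j n, ∑ m' ∈ iv j m, s4 e e A n' m'

theorem iv_zero' (m : ℤ) : iv 0 m = {m} := by
  ext x
  simp only [iv, mem_Ico, mem_singleton, pow_zero, one_mul]
  omega

theorem eG_zero (A : ℤ → ℤ → ℝ) (n m : ℤ) : eG e A 0 n m = 4 ^ e * s4 e e A n m := by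
  unfold eG
  rw [iv_zero', iv_zero', sum_singleton, sum_singleton]

theorem eG_succ (A : ℤ → ℤ → ℝ) (j : ℕ) (n m : ℤ) : eG e A (j + 1) n m =
    eG e A j (2 * n) (2 * m) + eG e A j (2 * n) (2 * m + 1) +
      eG e A j (2 * n + 1) (2 * m) + eG e A j (2 * n + 1) (2 * m + 1) := by
  unfold eG
  rw [iv_split j n]
  simp only [iv_split j m, sum_add_distrib]
  ring

/-- a point of a cell of the grid -/
theorem mem_up {j : ℕ} {n n' x : ℤ} (hn : n' ∈ iv j n) (hx : x ∈ iv e n') : x ∈ iv (e + j) n := by
  rw [mem_iv] at *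
  rw [← hn, ← hx, ix_ix]

theorem eG_eq_zero {A : ℤ → ℤ → ℝ} {j : ℕ} {n m : ℤ}
    (h : ∀ x ∈ iv (e + j) n, ∀ y ∈ iv (e + j) m, A x y = 0) : eG e A j n m = 0 := by
  unfold eG
  rw [sum_eq_zero, mul_zero]
  intro n' hn'
  refine sum_eq_zero fun m' hm' => ?_
  rw [s4_ext (F' := fun _ _ => 0) fun x hx y hy => h x (mem_up hn' hx) y (mem_up hm' hy), s4_zero']

theorem eG_congr {A A' : ℤ → ℤ → ℝ} {j : ℕ} {n m : ℤ}
    (h : ∀ x ∈ iv (e + j) n, ∀ y ∈ iv (e + j) m, A x y = A' x y) :
    eG e A j n m = eG e A' j n m := by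
  unfold eG
  congr 1
  refine sum_congr rfl fun n' hn' => sum_congr rfl fun m' hm' => ?_
  exact s4_ext fun x hx y hy => h x (mem_up hn' hx) y (mem_up hm' hy)

/-- The killed function has the same energy on the partition and on the full grid. -/
theorem eD_grid (A : ℤ → ℤ → ℝ) (j : ℕ) (n m : ℤ) :
    eD st e (kil st e j A) j n m = eG e (kil st e j A) j n m := by
  induction j generalizing n m with
  | zero => rw [eG_zero]; rfl
  | succ j ih =>
    by_cases h : st (e + j + 1) n m
    · have hz : ∀ x ∈ iv (e + (j + 1)) n, ∀ y ∈ iv (e + (j + 1)) m,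
          kil st e (j + 1) A x y = 0 := by
        intro x hx y hy
        simp [kil, dpt_of_st (j := j + 1) h hx hy]
      have h0 : s4 (e + j + 1) (e + j + 1) (kil st e (j + 1) A) n m = 0 := by
        rw [← s4_zero' (e + j + 1) (e + j + 1) n m]
        exact s4_ext hz
      rw [eG_eq_zero hz]
      unfold eD
      rw [if_pos h, h0, mul_zero]
    · rw [eG_succ]
      unfold eD
      rw [if_neg h]
      have h' : ∀ (n' m' : ℤ), (n' = 2 * n ∨ n' = 2 * n + 1) → (m' = 2 * m ∨ m' = 2 * m + 1) →
          eD st e (kil st e (j + 1) A) j n' m' = eG e (kil st e (j + 1) A) j n' m' := by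
        intro n' m' hn hm
        have hc : ∀ x ∈ iv (e + j) n', ∀ y ∈ iv (e + j) m',
            kil st e (j + 1) A x y = kil st e j A x y := by
          intro x hx y hy
          have hx' : x ∈ iv (e + j + 1) n := by
            rcases hn with rfl | rfl
            · exact iv_child.1 hx
            · exact iv_child.2 hx
          have hy' : y ∈ iv (e + j + 1) m := by
            rcases hm with rfl | rfl
            · exact iv_child.1 hy
            · exact iv_child.2 hy
          unfold kil
          simp only [dpt_succ h hx' hy']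
        rw [eD_congr j hc, eG_congr hc]
        exact ih n' m'
      rw [h' _ _ (Or.inl rfl) (Or.inl rfl), h' _ _ (Or.inl rfl) (Or.inr rfl),
        h' _ _ (Or.inr rfl) (Or.inl rfl), h' _ _ (Or.inr rfl) (Or.inr rfl)]

/-- **Deaths**: growth of the killed function from the square `(e + j, n, m)` to the full grid of
scale `e`. -/
theorem death (A : ℤ → ℤ → ℝ) (j : ℕ) (n m : ℤ) :
    eG e (kil st e j A) j n m - 4 ^ (e + j) * s4 (e + j) (e + j) (kil st e j A) n m ≤
      2 * (eD st e A j n m - 4 ^ (e + j) * s4 (e + j) (e + j) A n m) +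
        14 * dE st e A j n m := by
  rw [← eD_grid]
  exact death_part A j n m

theorem dE_nonneg (A : ℤ → ℤ → ℝ) (j : ℕ) (n m : ℤ) : 0 ≤ dE st e A j n m := by
  induction j generalizing n m with
  | zero =>
    unfold dE
    split_ifs
    · exact mul_nonneg (by positivity) (s4_nonneg ..)
    · exact le_rfl
  | succ j ih =>
    unfold dE
    split_ifs
    · exact mul_nonneg (by positivity) (s4_nonneg ..)
    · have h1 := ih (2 * n) (2 * m)
      have h2 := ih (2 * n) (2 * m + 1)
      have h3 := ih (2 * n + 1) (2 * m)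
      have h4 := ih (2 * n + 1) (2 * m + 1)
      linarith

/-- The killed energy is at most the energy on the partition. -/
theorem dE_le_eD (A : ℤ → ℤ → ℝ) (j : ℕ) (n m : ℤ) : dE st e A j n m ≤ eD st e A j n m := by
  induction j generalizing n m with
  | zero =>
    unfold dE eD
    split_ifs
    · exact le_rfl
    · exact mul_nonneg (by positivity) (s4_nonneg ..)
  | succ j ih =>
    unfold dE eD
    split_ifs
    · exact le_rfl
    · have h1 := ih (2 * n) (2 * m)
      have h2 := ih (2 * n) (2 * m + 1)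
      have h3 := ih (2 * n + 1) (2 * m)
      have h4 := ih (2 * n + 1) (2 * m + 1)
      linarith

/-- the part of `A` on the stopped squares has the energy `dE` on the partition -/
theorem eD_sub_kil (A : ℤ → ℤ → ℝ) (j : ℕ) (n m : ℤ) :
    eD st e (fun x y => A x y - kil st e j A x y) j n m = dE st e A j n m := by
  induction j generalizing n m with
  | zero =>
    unfold eD dE
    by_cases h : st e n m
    · rw [if_pos h]
      congr 1
      refine s4_ext fun x hx y hy => ?_
      simp [kil, dpt_of_st (j := 0) (e := e) h hx hy]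
    · rw [if_neg h, s4_ext (F' := fun _ _ => 0), s4_zero', mul_zero]
      intro x hx y hy
      have : ¬ dpt st e 0 x y := by
        rintro ⟨i, hi, hst⟩
        have : i = 0 := by omega
        subst this
        rw [mem_iv] at hx hy
        rw [add_zero, hx, hy] at hst
        exact h hst
      simp [kil, this]
  | succ j ih =>
    unfold eD dE
    by_cases h : st (e + j + 1) n m
    · rw [if_pos h, if_pos h]
      congr 1
      refine s4_ext fun x hx y hy => ?_
      simp [kil, dpt_of_st (j := j + 1) (e := e) h hx hy]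
    · rw [if_neg h, if_neg h]
      have h' : ∀ (n' m' : ℤ), (n' = 2 * n ∨ n' = 2 * n + 1) → (m' = 2 * m ∨ m' = 2 * m + 1) →
          eD st e (fun x y => A x y - kil st e (j + 1) A x y) j n' m' = dE st e A j n' m' := by
        intro n' m' hn hm
        rw [← ih n' m']
        refine eD_congr j fun x hx y hy => ?_
        have hx' : x ∈ iv (e + j + 1) n := by
          rcases hn with rfl | rfl
          · exact iv_child.1 hx
          · exact iv_child.2 hx
        have hy' : y ∈ iv (e + j + 1) m := by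
          rcases hm with rfl | rfl
          · exact iv_child.1 hy
          · exact iv_child.2 hy
        unfold kil
        simp only [dpt_succ h hx' hy']
      rw [h' _ _ (Or.inl rfl) (Or.inl rfl), h' _ _ (Or.inl rfl) (Or.inr rfl),
        h' _ _ (Or.inr rfl) (Or.inl rfl), h' _ _ (Or.inr rfl) (Or.inr rfl)]

end

end Vale.Agent.P141.H425
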